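import Vale.Agent.P237.Statement

/-! # P237: sections parallel to a subspace -/

open MeasureTheory Module

namespace Vale.Agent.N237

open Vale.Agent.P237.Statement

/-- The section of `K` by the affine subspace `y + E` (`y ∈ E^⊥`), as a subset of `E`. -/
def crossSection {V : Type} [NormedAddCommGroup V] [InnerProductSpace ℝ V] (K : Set V)
    (E : Submodule ℝ V) (y : Eᗮ) : Set E :=
  {z | (z : V) + (y : V) ∈ K}

/-- Petty's constant `c_k = κ_{k-1}^k κ_k^{2-k}`. -/
noncomputable def pettyConst (k : ℕ) : ℝ := kappa (k - 1) ^ k * kappa k ^ (2 - (k : ℤ))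

variable {V : Type} [NormedAddCommGroup V] [InnerProductSpace ℝ V] [FiniteDimensional ℝ V]
  [MeasurableSpace V] [BorelSpace V]

/-- The volume in `E` of the section of `K` by `y + E`. -/
noncomputable def sectionVol (K : Set V) (E : Submodule ℝ V) (y : Eᗮ) : ℝ :=
  vol (crossSection K E y)

/-- The volume in `E` of the orthogonal projection of `L` onto `E`. -/
noncomputable def projectionVol (L : Set V) (E : Submodule ℝ V) : ℝ :=
  vol (E.orthogonalProjectionOnto '' L)

/-- Almost every section of `K` parallel to `E` is empty or a homothetic copy of one and the same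
ellipsoid of `E`. -/
def HasEllipsoidalSections (K : Set V) (E : Submodule ℝ V) : Prop :=
  ∃ Q : Set E, IsEllipsoid Q ∧ ∀ᵐ y : Eᗮ, crossSection K E y = ∅ ∨
    ∃ (a : E) (r : ℝ), 0 < r ∧ crossSection K E y = (fun x => a + r • x) '' Q

end Vale.Agent.N237
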