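import Vale.Agent.P237.Bd3.B1

/-! # P237: the Brunn-Minkowski inequality for integrals of support functions -/

open MeasureTheory Metric Set Module Filter Topology
open scoped Pointwise

namespace Vale.Agent.N237

open Vale.Agent.P237

/-- the integral of a function with values in a convex cone lies in the closure of the cone -/
theorem integral_mem_closure_cone {X Y : Type*} [NormedAddCommGroup X] [NormedSpace ℝ X]
    [CompleteSpace X] [MeasurableSpace Y] {μ : Measure Y} {C : Set X} (hc : Convex ℝ C)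
    (h0 : (0 : X) ∈ C) (hs : ∀ r : ℝ, 0 < r → ∀ x ∈ C, r • x ∈ C) {f : Y → X}
    (hf : Integrable f μ) (hm : ∀ y, f y ∈ C) : ∫ y, f y ∂μ ∈ closure C := by
  by_contra hn
  obtain ⟨l, u, h1, h2⟩ := geometric_hahn_banach_point_closed hc.closure isClosed_closure hn
  have hu : u < 0 := by simpa using h2 0 (subset_closure h0)
  have h3 : ∀ x ∈ C, 0 ≤ l x := by
    intro x hx
    by_contra hneg
    have hneg' : l x < 0 := not_le.1 hneg
    have h4 := h2 _ (subset_closure (hs (u / l x) (div_pos_of_neg_of_neg hu hneg') x hx))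
    rw [map_smul, smul_eq_mul, div_mul_cancel₀ _ hneg'.ne] at h4
    exact lt_irrefl _ h4
  have h4 : 0 ≤ ∫ y, l (f y) ∂μ := integral_nonneg fun y => h3 _ (hm y)
  rw [l.integral_comp_comm hf] at h4
  linarith

variable {W : Type*} [NormedAddCommGroup W] [InnerProductSpace ℝ W] [FiniteDimensional ℝ W]
  [MeasurableSpace W] [BorelSpace W]

/-- the root of the volume -/
noncomputable def rt (T : Set W) : ℝ := vol T ^ ((1 : ℝ) / finrank ℝ W)

theorem rt_nonneg (T : Set W) : 0 ≤ rt T := Real.rpow_nonneg (vol_nonneg _) _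

theorem rt_mono {S T : Set W} (hT : IsCompact T) (h : S ⊆ T) : rt S ≤ rt T :=
  Real.rpow_le_rpow (vol_nonneg _) (vol_mono hT h) (by positivity)

theorem rt_smul (hd : 0 < finrank ℝ W) {r : ℝ} (hr : 0 ≤ r) (T : Set W) :
    rt (r • T) = r * rt T := by
  unfold rt
  rw [vol_smul_set, AllN.rpow_scale hd hr (vol_nonneg _)]

theorem rt_pow (hd : 0 < finrank ℝ W) (T : Set W) : rt T ^ finrank ℝ W = vol T := by
  unfold rt
  rw [one_div, Real.rpow_inv_natCast_pow (vol_nonneg _) hd.ne']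

theorem rt_combo (hd : 0 < finrank ℝ W) {S T : Set W} (hS : IsCompact S) (hT : IsCompact T)
    (nS : S.Nonempty) (nT : T.Nonempty) {a b : ℝ} (ha : 0 ≤ a) (hb : 0 ≤ b) :
    a * rt S + b * rt T ≤ rt (a • S + b • T) := by
  rw [← rt_smul hd ha, ← rt_smul hd hb]
  exact brunn_minkowski (hS.smul a) (hT.smul b) nS.smul_set nT.smul_set hd

/-- the inequality with finitely many directions and an error -/
theorem ibm_finite (hd : 0 < finrank ℝ W) {Y : Type*} [MeasurableSpace Y] {μ : Measure Y}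
    {b : Y → W → ℝ} {ρ φ : Y → ℝ} (hb : ∀ w, Integrable (fun y => b y w) μ)
    (hρ : Integrable ρ μ) (hφ : Integrable φ μ)
    (hT : ∀ y, ∃ T : Set W, IsCompact T ∧ T.Nonempty ∧ (∀ z ∈ T, ‖z‖ ≤ ρ y) ∧
      (∀ z ∈ T, ∀ w, inner ℝ z w ≤ b y w) ∧ φ y ≤ rt T)
    {N : ℕ} (u : Fin N → W) {ε : ℝ} (hε : 0 < ε) :
    ∫ y, φ y ∂μ - ε ≤ rt {z : W | ‖z‖ ≤ ∫ y, ρ y ∂μ + ε ∧
      ∀ i, inner ℝ z (u i) ≤ ∫ y, b y (u i) ∂μ + ε} := by
  let C : Set (Fin N ⊕ Bool → ℝ) := {t | ∃ T : Set W, IsCompact T ∧ T.Nonempty ∧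
    (∀ z ∈ T, ‖z‖ ≤ t (Sum.inr true)) ∧ (∀ z ∈ T, ∀ i, inner ℝ z (u i) ≤ t (Sum.inl i)) ∧
    t (Sum.inr false) ≤ rt T}
  have hcomb : ∀ s ∈ C, ∀ t ∈ C, ∀ a c : ℝ, 0 ≤ a → 0 ≤ c → a • s + c • t ∈ C := by
    rintro s ⟨S, s1, s2, s3, s4, s5⟩ t ⟨T, t1, t2, t3, t4, t5⟩ a c ha hc
    refine ⟨a • S + c • T, (s1.smul a).add (t1.smul c), s2.smul_set.add t2.smul_set, ?_, ?_, ?_⟩
    · rintro _ ⟨_, ⟨x, hx, rfl⟩, _, ⟨y, hy, rfl⟩, rfl⟩
      refine (norm_add_le _ _).trans ?_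
      simp only [norm_smul, Real.norm_eq_abs, abs_of_nonneg ha, abs_of_nonneg hc, Pi.add_apply,
        Pi.smul_apply, smul_eq_mul]
      exact add_le_add (mul_le_mul_of_nonneg_left (s3 x hx) ha)
        (mul_le_mul_of_nonneg_left (t3 y hy) hc)
    · rintro _ ⟨_, ⟨x, hx, rfl⟩, _, ⟨y, hy, rfl⟩, rfl⟩ i
      simp only [inner_add_left, real_inner_smul_left, Pi.add_apply, Pi.smul_apply, smul_eq_mul]
      exact add_le_add (mul_le_mul_of_nonneg_left (s4 x hx i) ha)
        (mul_le_mul_of_nonneg_left (t4 y hy i) hc)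
    · simp only [Pi.add_apply, Pi.smul_apply, smul_eq_mul]
      exact (add_le_add (mul_le_mul_of_nonneg_left s5 ha)
        (mul_le_mul_of_nonneg_left t5 hc)).trans (rt_combo hd s1 t1 s2 t2 ha hc)
  have h0 : (0 : Fin N ⊕ Bool → ℝ) ∈ C := by
    refine ⟨{0}, isCompact_singleton, singleton_nonempty _, ?_, ?_, rt_nonneg _⟩
    · rintro _ rfl
      simp
    · rintro _ rfl i
      simp
  let f : Y → (Fin N ⊕ Bool → ℝ) := fun y =>
    Sum.elim (fun i => b y (u i)) (fun j => cond j (ρ y) (φ y))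
  have hf : Integrable f μ := by
    rw [integrable_pi_iff]
    rintro (i | j)
    · exact hb (u i)
    · cases j
      · exact hφ
      · exact hρ
  have hmem := integral_mem_closure_cone (C := C) (fun s hs t ht a c ha hc _ => hcomb s hs t ht a c ha hc)
    h0 (fun r hr x hx => by simpa using hcomb x hx 0 h0 r 0 hr.le le_rfl) hf (by
      intro y
      obtain ⟨T, t1, t2, t3, t4, t5⟩ := hT y
      exact ⟨T, t1, t2, t3, fun z hz i => t4 z hz (u i), t5⟩)
  obtain ⟨t, ⟨T, t1, t2, t3, t4, t5⟩, hdist⟩ := Metric.mem_closure_iff.1 hmem ε hε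
  have hco : ∀ j, |(∫ y, f y j ∂μ) - t j| < ε := by
    intro j
    have h1 := (dist_le_pi_dist _ t j).trans_lt hdist
    have h2 : (∫ y, f y ∂μ) j = ∫ y, f y j ∂μ :=
      ((ContinuousLinearMap.proj (R := ℝ) (φ := fun _ : Fin N ⊕ Bool => ℝ) j).integral_comp_comm
        hf).symm
    rwa [h2, Real.dist_eq] at h1
  have k1 : |(∫ y, φ y ∂μ) - t (Sum.inr false)| < ε := hco (Sum.inr false)
  have k2 : |(∫ y, ρ y ∂μ) - t (Sum.inr true)| < ε := hco (Sum.inr true)
  have k3 : ∀ i, |(∫ y, b y (u i) ∂μ) - t (Sum.inl i)| < ε := fun i => hco (Sum.inl i)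
  have hcomp : IsCompact {z : W | ‖z‖ ≤ ∫ y, ρ y ∂μ + ε ∧
      ∀ i, inner ℝ z (u i) ≤ ∫ y, b y (u i) ∂μ + ε} := by
    refine (isCompact_closedBall (0 : W) (∫ y, ρ y ∂μ + ε)).of_isClosed_subset ?_ ?_
    · refine (isClosed_le continuous_norm continuous_const).inter ?_
      show IsClosed {z : W | ∀ i, inner ℝ z (u i) ≤ ∫ y, b y (u i) ∂μ + ε}
      rw [ofPred_forall]
      exact isClosed_iInter fun i =>
        isClosed_le (continuous_id.inner continuous_const) continuous_const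
    · exact fun z hz => mem_closedBall_zero_iff.2 hz.1
  refine le_trans ?_ (t5.trans (rt_mono hcomp fun z hz => ⟨?_, fun i => ?_⟩))
  · linarith [(abs_lt.1 k1).2]
  · linarith [(abs_lt.1 k2).1, t3 z hz]
  · linarith [(abs_lt.1 (k3 i)).1, t4 z hz i]

/-- **Brunn-Minkowski for integrals of support functions.** -/
theorem ibm (hd : 0 < finrank ℝ W) {Y : Type*} [MeasurableSpace Y] {μ : Measure Y}
    {b : Y → W → ℝ} {ρ φ : Y → ℝ} (hb : ∀ w, Integrable (fun y => b y w) μ)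
    (hρ : Integrable ρ μ) (hφ : Integrable φ μ)
    (hT : ∀ y, ∃ T : Set W, IsCompact T ∧ T.Nonempty ∧ (∀ z ∈ T, ‖z‖ ≤ ρ y) ∧
      (∀ z ∈ T, ∀ w, inner ℝ z w ≤ b y w) ∧ φ y ≤ rt T)
    {h : W → ℝ} (hh : Continuous h) (hint : ∀ w, ∫ y, b y w ∂μ = h w)
    (hcomp : IsCompact (wulff h)) : ∫ y, φ y ∂μ ≤ rt (wulff h) := by
  obtain ⟨u, hu⟩ := TopologicalSpace.exists_dense_seq W
  let A : ℕ → Set W := fun N => {z : W | ‖z‖ ≤ ∫ y, ρ y ∂μ + 1 / ((N : ℝ) + 1) ∧
      ∀ i : Fin N, inner ℝ z (u i) ≤ h (u i) + 1 / ((N : ℝ) + 1)}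
  have h1 : ∀ N : ℕ, ∫ y, φ y ∂μ - 1 / ((N : ℝ) + 1) ≤ rt (A N) := by
    intro N
    have := ibm_finite hd hb hρ hφ hT (fun i : Fin N => u i) (Nat.one_div_pos_of_nat (n := N))
    simpa only [hint] using this
  have hcl : ∀ N, IsClosed (A N) := by
    intro N
    refine (isClosed_le continuous_norm continuous_const).inter ?_
    show IsClosed {z : W | ∀ i : Fin N, inner ℝ z (u i) ≤ h (u i) + 1 / ((N : ℝ) + 1)}
    rw [ofPred_forall]
    exact isClosed_iInter fun i =>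
      isClosed_le (continuous_id.inner continuous_const) continuous_const
  have hanti : Antitone A := by
    intro M N hMN z hz
    have h2 : 1 / ((N : ℝ) + 1) ≤ 1 / ((M : ℝ) + 1) := Nat.one_div_le_one_div hMN
    refine ⟨by linarith [hz.1], fun i => ?_⟩
    have := hz.2 ⟨i, lt_of_lt_of_le i.2 hMN⟩
    simp only at this
    linarith
  have hfin : volume (A 0) ≠ ⊤ := by
    refine (measure_mono (fun z hz => mem_closedBall_zero_iff.2 hz.1)).trans_lt
      measure_closedBall_lt_top |>.ne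
  have hlim := tendsto_measure_iInter_atTop (μ := volume)
    (fun N => (hcl N).measurableSet.nullMeasurableSet) hanti ⟨0, hfin⟩
  have hsub : ⋂ N, A N ⊆ wulff h := by
    intro z hz w
    refine hu.induction_on w (isClosed_le (continuous_const.inner continuous_id) hh) ?_
    intro i
    refine le_of_forall_pos_le_add fun ε hε => ?_
    obtain ⟨N, hN⟩ := exists_nat_one_div_lt hε
    have h2 := (mem_iInter.1 hz (max N (i + 1))).2 ⟨i, by omega⟩
    have h3 : 1 / (((max N (i + 1) : ℕ) : ℝ) + 1) ≤ 1 / ((N : ℝ) + 1) :=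
      Nat.one_div_le_one_div (le_max_left _ _)
    simp only at h2
    linarith
  have hfin' : volume (⋂ N, A N) ≠ ⊤ :=
    ((measure_mono hsub).trans_lt hcomp.measure_lt_top).ne
  have hlim2 : Tendsto (fun N => rt (A N)) atTop (𝓝 (rt (⋂ N, A N))) :=
    ((ENNReal.tendsto_toReal hfin').comp hlim).rpow_const (Or.inr (by positivity))
  have hlim3 : Tendsto (fun N : ℕ => ∫ y, φ y ∂μ - 1 / ((N : ℝ) + 1)) atTop
      (𝓝 (∫ y, φ y ∂μ - 0)) := tendsto_const_nhds.sub tendsto_one_div_add_atTop_nhds_zero_nat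
  rw [sub_zero] at hlim3
  exact (le_of_tendsto_of_tendsto' hlim3 hlim2 h1).trans (rt_mono hcomp hsub)

/-- even sublinear functions -/
structure Nice (g : W → ℝ) : Prop where
  hs : ∀ (t : ℝ) v, 0 ≤ t → g (t • v) = t * g v
  ha : ∀ v w, g (v + w) ≤ g v + g w
  ev : ∀ v, g (-v) = g v
  bd : ∃ C : ℝ, 0 ≤ C ∧ ∀ v, g v ≤ C * ‖v‖

omit [FiniteDimensional ℝ W] [MeasurableSpace W] [BorelSpace W] in
theorem Nice.nonneg {g : W → ℝ} (h : Nice g) (v : W) : 0 ≤ g v := by
  have h0 : g 0 = 0 := by simpa only [smul_zero, zero_mul] using h.hs 0 0 le_rfl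
  have h1 := h.ha v (-v)
  rw [add_neg_cancel, h0, h.ev] at h1
  linarith

omit [FiniteDimensional ℝ W] [MeasurableSpace W] [BorelSpace W] in
theorem Nice.continuous {g : W → ℝ} (h : Nice g) : Continuous g := by
  obtain ⟨C, hC, hCb⟩ := h.bd
  have h1 : ∀ v w, g v - g w ≤ C * dist v w := by
    intro v w
    have h2 := h.ha w (v - w)
    rw [add_sub_cancel] at h2
    have h3 := hCb (v - w)
    rw [dist_eq_norm]
    linarith
  refine (LipschitzWith.of_dist_le_mul (K := C.toNNReal) fun v w => ?_).continuous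
  rw [Real.coe_toNNReal _ hC, Real.dist_eq, abs_le]
  constructor
  · have := h1 w v
    rw [dist_comm] at this
    linarith
  · exact h1 v w

omit [FiniteDimensional ℝ W] [MeasurableSpace W] [BorelSpace W] in
theorem Nice.zero_mem {g : W → ℝ} (h : Nice g) : (0 : W) ∈ wulff g := by
  intro v
  rw [inner_zero_left]
  exact h.nonneg v

omit [FiniteDimensional ℝ W] [MeasurableSpace W] [BorelSpace W] in
theorem norm_le_of_inner_le {z : W} {C : ℝ} (hC : 0 ≤ C) (h : inner ℝ z z ≤ C * ‖z‖) :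
    ‖z‖ ≤ C := by
  rw [real_inner_self_eq_norm_sq] at h
  rcases (norm_nonneg z).eq_or_lt with h0 | h0
  · rw [← h0]
    exact hC
  · rw [sq] at h
    exact le_of_mul_le_mul_right h h0

omit [MeasurableSpace W] [BorelSpace W] in
theorem Nice.compact {g : W → ℝ} (h : Nice g) : IsCompact (wulff g) := by
  obtain ⟨C, hC, hCb⟩ := h.bd
  refine (isCompact_closedBall (0 : W) C).of_isClosed_subset ?_ ?_
  · unfold wulff
    rw [ofPred_forall]
    exact isClosed_iInter fun v =>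
      isClosed_le (continuous_id.inner continuous_const) continuous_const
  · intro z hz
    exact mem_closedBall_zero_iff.2 (norm_le_of_inner_le hC ((hz z).trans (hCb z)))

omit [FiniteDimensional ℝ W] [MeasurableSpace W] [BorelSpace W] in
theorem wulff_combo {g₁ g₂ : W → ℝ} {a b : ℝ} (ha : 0 ≤ a) (hb : 0 ≤ b) :
    a • wulff g₁ + b • wulff g₂ ⊆ wulff (fun v => a * g₁ v + b * g₂ v) := by
  rintro _ ⟨_, ⟨x, hx, rfl⟩, _, ⟨y, hy, rfl⟩, rfl⟩ v
  simp only [inner_add_left, real_inner_smul_left]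
  exact add_le_add (mul_le_mul_of_nonneg_left (hx v) ha) (mul_le_mul_of_nonneg_left (hy v) hb)

omit [FiniteDimensional ℝ W] [MeasurableSpace W] [BorelSpace W] in
theorem wulff_convex (g : W → ℝ) : Convex ℝ (wulff g) := by
  intro x hx y hy a b ha hb hab v
  have := wulff_combo (g₁ := g) (g₂ := g) ha hb
    (add_mem_add (smul_mem_smul_set hx) (smul_mem_smul_set hy)) v
  simp only at this
  rwa [← add_mul, hab, one_mul] at this

omit [FiniteDimensional ℝ W] [MeasurableSpace W] [BorelSpace W] in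
theorem Nice.combo {g₁ g₂ : W → ℝ} (h₁ : Nice g₁) (h₂ : Nice g₂) {a b : ℝ} (ha : 0 ≤ a)
    (hb : 0 ≤ b) : Nice (fun v => a * g₁ v + b * g₂ v) where
  hs t v ht := by
    rw [h₁.hs t v ht, h₂.hs t v ht]
    ring
  ha v w := by
    have k1 := mul_le_mul_of_nonneg_left (h₁.ha v w) ha
    have k2 := mul_le_mul_of_nonneg_left (h₂.ha v w) hb
    linarith
  ev v := by rw [h₁.ev, h₂.ev]
  bd := by
    obtain ⟨C, hC, hCb⟩ := h₁.bd
    obtain ⟨D, hD, hDb⟩ := h₂.bd
    refine ⟨a * C + b * D, by positivity, fun v => ?_⟩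
    have k1 := mul_le_mul_of_nonneg_left (hCb v) ha
    have k2 := mul_le_mul_of_nonneg_left (hDb v) hb
    linarith

theorem Nice.symBody (hd : 0 < finrank ℝ W) {g : W → ℝ} (h : Nice g) (hp : 0 < rt (wulff g)) :
    IsSymBody (wulff g) := by
  refine ⟨⟨wulff_convex g, h.compact, ?_⟩, ?_⟩
  · by_contra hi
    have h1 := AllN.vol_eq_zero_of_interior h.compact (wulff_convex g) hi
    have h2 := rt_pow hd (wulff g)
    rw [h1] at h2
    exact (pow_pos hp _).ne' h2
  · intro y hy v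
    have h1 := hy (-v)
    rw [h.ev, inner_neg_right] at h1
    rwa [inner_neg_left]

/-- equality in Brunn-Minkowski, at the midpoint -/
theorem eq_of_half (hd : 0 < finrank ℝ W) {g₁ g₂ : W → ℝ} (h₁ : Nice g₁) (h₂ : Nice g₂) {a : ℝ}
    (ha : 0 < a) (k₁ : a ≤ rt (wulff g₁)) (k₂ : a ≤ rt (wulff g₂))
    (k : rt (wulff (fun v => 2⁻¹ * g₁ v + 2⁻¹ * g₂ v)) ≤ a) : g₁ = g₂ := by
  have b₁ := h₁.symBody hd (ha.trans_le k₁)
  have b₂ := h₂.symBody hd (ha.trans_le k₂)
  have hh : (0 : ℝ) ≤ 2⁻¹ := by norm_num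
  have k3 := rt_combo hd h₁.compact h₂.compact ⟨0, h₁.zero_mem⟩ ⟨0, h₂.zero_mem⟩ hh hh
  have k4 := rt_mono (h₁.combo h₂ hh hh).compact (wulff_combo (g₁ := g₁) (g₂ := g₂) hh hh)
  have e1 : rt (wulff g₁) = rt (wulff g₂) := by linarith
  have e2 : rt ((2⁻¹ : ℝ) • wulff g₁ + (2⁻¹ : ℝ) • wulff g₂) = rt (wulff g₁) := by linarith
  rw [← smul_add] at e2
  obtain ⟨c, hc⟩ := bm_equality b₁.toIsBody b₂.toIsBody
    (by rw [← rt_pow hd, ← rt_pow hd, e1]) (by rw [← rt_pow hd, ← rt_pow hd, e2])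
  have hc0 : c = 0 := center_zero b₁ b₂ one_pos (by rw [one_smul]; exact hc)
  subst hc0
  simp only [zero_add, image_id'] at hc
  funext v
  rw [← wulff_supp h₁.hs h₁.ha v, ← wulff_supp h₂.hs h₂.ha v, hc]

/-- equality in Brunn-Minkowski -/
theorem proportional (hd : 0 < finrank ℝ W) {g₁ g₂ : W → ℝ} (h₁ : Nice g₁) (h₂ : Nice g₂)
    {a b : ℝ} (ha : 0 ≤ a) (hb : 0 ≤ b) (hab : 0 < a + b) (k₁ : a ≤ rt (wulff g₁))
    (k₂ : b ≤ rt (wulff g₂)) (k : rt (wulff (fun v => g₁ v + g₂ v)) ≤ a + b) (v : W) :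
    b * g₁ v = a * g₂ v := by
  have hlow : ∀ s t : ℝ, 0 ≤ s → 0 ≤ t →
      s * a + t * b ≤ rt (wulff (fun v => s * g₁ v + t * g₂ v)) := by
    intro s t hs ht
    have k3 := rt_combo hd h₁.compact h₂.compact ⟨0, h₁.zero_mem⟩ ⟨0, h₂.zero_mem⟩ hs ht
    have k4 := rt_mono (h₁.combo h₂ hs ht).compact (wulff_combo (g₁ := g₁) (g₂ := g₂) hs ht)
    have k5 := mul_le_mul_of_nonneg_left k₁ hs
    have k6 := mul_le_mul_of_nonneg_left k₂ ht
    linarith
  have p1 : 0 ≤ (a + 2 * b) / (a + b) := by positivity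
  have p2 : 0 ≤ b / (a + b) := by positivity
  have p3 : 0 ≤ a / (a + b) := by positivity
  have p4 : 0 ≤ (2 * a + b) / (a + b) := by positivity
  have h := eq_of_half hd (h₁.combo h₂ p1 p2) (h₁.combo h₂ p3 p4) hab
    (le_trans (le_of_eq (by field_simp; ring)) (hlow _ _ p1 p2))
    (le_trans (le_of_eq (by field_simp; ring)) (hlow _ _ p3 p4))
    (by
      refine le_trans (le_of_eq ?_) k
      congr 2
      funext w
      field_simp
      ring)
  have h3 := congrFun h v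
  field_simp at h3
  linarith

end Vale.Agent.N237
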