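import Vale.Agent.N237.Sections
import Vale.Agent.P237.Bd3.B30

/-! # P237: Petty's inequality for the projections of the projection body -/

open MeasureTheory Metric Set Module Filter Topology
open scoped Pointwise

namespace Vale.Agent.N237

open Vale.Agent.P237

section ellipsoid

variable {W : Type} [NormedAddCommGroup W] [InnerProductSpace ℝ W] [FiniteDimensional ℝ W]
  [MeasurableSpace W] [BorelSpace W]

theorem beta_ball {m : ℕ} (hd : finrank ℝ W = m + 1) (v : W) :
    beta (closedBall (0 : W) 1) v = Statement.kappa m * ‖v‖ := by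
  by_cases hv : v = 0
  · subst hv
    rw [beta_zero, norm_zero, mul_zero]
  · have hB : IsSymBody (closedBall (0 : W) 1) := isSymBody_ball
    rw [beta_eq_norm_mul hB.compact hB.convex hv, shadow_ball,
      AllN.vol_unitBall (AllN.finrank_perp_gen hd (norm_unit hv)), mul_comm]

omit [MeasurableSpace W] [BorelSpace W] in
theorem isBody_of_ellipsoid {Q : Set W} (h : Statement.IsEllipsoid Q) : IsBody Q := by
  obtain ⟨a, T, rfl⟩ := (Statement.isEllipsoid_iff Q).1 h
  have h1 := (isSymBody_ball.toIsBody.image T).translate a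
  rwa [image_image] at h1

omit [FiniteDimensional ℝ W] [MeasurableSpace W] [BorelSpace W] in
theorem wulff_mul {g : W → ℝ} {r : ℝ} (hr : 0 < r) :
    wulff (fun v => r * g v) = r • wulff g := by
  ext z
  rw [mem_smul_set_iff_inv_smul_mem₀ hr.ne']
  refine forall_congr' fun v => ?_
  rw [real_inner_smul_left, inv_mul_le_iff₀ hr]

omit [FiniteDimensional ℝ W] [MeasurableSpace W] [BorelSpace W] in
theorem image_homothety (a : W) (r : ℝ) (Q : Set W) :
    (fun x => a + r • x) '' Q = (fun x => a + x) '' (r • Q) := by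
  rw [← image_smul, image_image]

/-- an ellipsoid is determined, up to homothety, by its brightness function -/
theorem homothetic_of_beta (hd : 0 < finrank ℝ W) {S : Set W} (hS : Statement.IsEllipsoid S)
    {h : W → ℝ} (hh : ∀ (t : ℝ) v, 0 ≤ t → h (t • v) = t * h v) {l : ℝ} (hl : 0 < l)
    (hb : ∀ w, beta S w = l * h w) : Statement.IsEllipsoid {w | h w ≤ 1} ∧
      ∃ (a : W) (r : ℝ), 0 < r ∧ S = (fun x => a + r • x) '' {w | h w ≤ 1} := by
  obtain ⟨a, T, rfl⟩ := (Statement.isEllipsoid_iff S).1 hS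
  obtain ⟨m, hm⟩ : ∃ m, finrank ℝ W = m + 1 := ⟨finrank ℝ W - 1, by omega⟩
  have hdet : 0 < |LinearMap.det (T : W →ₗ[ℝ] W)| := abs_pos.2 T.isUnit_det'.ne_zero
  have hk := AllN.kappa_pos m
  obtain ⟨r, hr⟩ : ∃ r, r = |LinearMap.det (T : W →ₗ[ℝ] W)| * Statement.kappa m / l := ⟨_, rfl⟩
  have hr0 : 0 < r := by
    rw [hr]
    positivity
  have h1 : ∀ x, h (T x) = r * ‖x‖ := by
    intro x
    have h2 := hb (T x)
    rw [← image_image (fun x => a + x) T, beta_translate, beta_image, beta_ball hm] at h2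
    rw [hr]
    field_simp
    linarith
  have h2 : {w | h w ≤ 1} = (fun x => r⁻¹ • T x) '' closedBall 0 1 := by
    ext w
    constructor
    · intro hw
      refine ⟨r • T.symm w, ?_, ?_⟩
      · have h3 := h1 (T.symm w)
        rw [T.apply_symm_apply] at h3
        rw [mem_closedBall_zero_iff, norm_smul, Real.norm_eq_abs, abs_of_pos hr0, ← h3]
        exact hw
      · simp only [map_smul, T.apply_symm_apply, smul_smul, inv_mul_cancel₀ hr0.ne', one_smul]
    · rintro ⟨x, hx, rfl⟩
      show h (r⁻¹ • T x) ≤ 1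
      rw [hh _ _ (inv_pos.2 hr0).le, h1, ← mul_assoc, inv_mul_cancel₀ hr0.ne', one_mul]
      exact mem_closedBall_zero_iff.1 hx
  rw [h2]
  refine ⟨(Statement.isEllipsoid_iff _).2
    ⟨0, T.trans (LinearEquiv.smulOfNeZero ℝ W r⁻¹ (inv_pos.2 hr0).ne'), ?_⟩, a, r, hr0, ?_⟩
  · congr 1
    funext x
    simp
  · rw [image_image]
    congr 1
    funext x
    rw [smul_smul, mul_inv_cancel₀ hr0.ne', one_smul]

end ellipsoid

variable {V : Type} [NormedAddCommGroup V] [InnerProductSpace ℝ V] [FiniteDimensional ℝ V]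
  [MeasurableSpace V] [BorelSpace V]

theorem petty_body {n : ℕ} (hn : 3 ≤ n) (hd : finrank ℝ V = n) {K : Set V} (hK : IsBody K) :
    AllN.RC n * vol K ^ (n - 1) ≤ vol (projBody K) ∧
      (vol (projBody K) = AllN.RC n * vol K ^ (n - 1) ↔ Statement.IsEllipsoid K) := by
  have hK' : Statement.IsConvexBody K := ⟨hK.convex, hK.compact, hK.int⟩
  exact AllN.petty_all hn hd K _ hK' ((Statement.isProjectionBody_iff hK').2 rfl)

theorem ph_pow {K : Set V} {E : Submodule ℝ V} (hd : 0 < finrank ℝ E) (y : Eᗮ) :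
    ph K E y ^ finrank ℝ E = vol (crossSection K E y) ^ (finrank ℝ E - 1) := by
  unfold ph
  rw [← pow_mul, mul_comm, pow_mul, rt_pow hd]

theorem root_pow {c : ℝ} (hc : 0 ≤ c) {k : ℕ} (hk : 0 < k) : (c ^ ((1 : ℝ) / k)) ^ k = c := by
  rw [one_div, Real.rpow_inv_natCast_pow hc hk.ne']

theorem sub_ineq {K : Set V} (hK : IsBody K) {E : Submodule ℝ V} (hd : 3 ≤ finrank ℝ E) :
    AllN.RC (finrank ℝ E) * (∫ y, ph K E y) ^ finrank ℝ E ≤
      vol (E.orthogonalProjectionOnto '' projBody K) := by
  have hc := AllN.RC_pos (m := finrank ℝ E) (by omega)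
  have h := gA_ge hK.compact hK.convex (by omega) hc.le
    (fun S hS => (petty_body hd rfl hS).1) univ
  rw [Measure.restrict_univ] at h
  have h2 := pow_le_pow_left₀ (mul_nonneg (Real.rpow_nonneg hc.le _)
    (integral_nonneg (ph_nonneg K E))) h (finrank ℝ E)
  rwa [mul_pow, root_pow hc.le (by omega), rt_pow (by omega),
    ← proj_projBody hK.compact hK.convex] at h2

theorem sub_eq_only {K : Set V} (hK : IsBody K) {E : Submodule ℝ V} (hd : 3 ≤ finrank ℝ E)
    (heq : vol (E.orthogonalProjectionOnto '' projBody K) =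
      AllN.RC (finrank ℝ E) * (∫ y, ph K E y) ^ finrank ℝ E) :
    ∃ Q : Set E, Statement.IsEllipsoid Q ∧ ∀ᵐ y : Eᗮ, crossSection K E y = ∅ ∨
      ∃ (a : E) (r : ℝ), 0 < r ∧ crossSection K E y = (fun x => a + r • x) '' Q := by
  have hc := AllN.RC_pos (m := finrank ℝ E) (by omega)
  have hI := integral_ph_pos hK (E := E) (by omega)
  rw [proj_projBody hK.compact hK.convex] at heq
  have h1 := ae_proportional hK (by omega) hc (fun S hS => (petty_body hd rfl hS).1) (by
    refine le_of_eq ((pow_left_inj₀ (rt_nonneg _) (mul_nonneg (Real.rpow_nonneg hc.le _) hI.le)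
      (by omega : finrank ℝ E ≠ 0)).1 ?_)
    rw [mul_pow, root_pow hc.le (by omega), rt_pow (by omega), heq])
  have h2 : ∀ᵐ y : Eᗮ, crossSection K E y = ∅ ∨
      (Statement.IsEllipsoid {w : E | beta K w ≤ 1} ∧ ∃ (a : E) (r : ℝ), 0 < r ∧
        crossSection K E y = (fun x => a + r • x) '' {w : E | beta K w ≤ 1}) := by
    filter_upwards [h1, ae_sec hK E] with y hy hb
    refine hb.imp id fun hb => ?_
    have hph : 0 < ph K E y := pow_pos (Real.rpow_pos_of_pos (Main.vol_pos hb) _) _
    have hl : 0 < ph K E y / ∫ y, ph K E y := div_pos hph hI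
    refine homothetic_of_beta (by omega) ((petty_body hd rfl hb).2.1 ?_)
      (fun t v ht => beta_hs hK.compact hK.convex t v ht) hl hy
    have e1 : beta (crossSection K E y) = fun w => ph K E y / (∫ y, ph K E y) * gA K E univ w := by
      funext w
      rw [hy, gA_univ hK.compact]
    rw [projBody_eq_wulff hb.compact hb.convex, e1, wulff_mul hl, vol_smul_set_of_nonneg hl.le,
      heq, ← ph_pow (by omega), div_pow]
    field_simp
  have h3 : Statement.IsEllipsoid {w : E | beta K w ≤ 1} := by
    by_contra hn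
    refine hI.ne' (integral_eq_zero_of_ae ?_)
    filter_upwards [h2] with y hy
    rcases hy with hy | hy
    · show rt (crossSection K E y) ^ _ = 0
      rw [hy, rt_empty (by omega), zero_pow (by omega)]
    · exact absurd hy.1 hn
  refine ⟨_, h3, ?_⟩
  filter_upwards [h2] with y hy
  exact hy.imp id fun h => h.2

theorem sub_eq_if {K : Set V} (hK : IsBody K) {E : Submodule ℝ V} (hd : 3 ≤ finrank ℝ E)
    {Q : Set E} (hQ : Statement.IsEllipsoid Q) (h : ∀ᵐ y : Eᗮ, crossSection K E y = ∅ ∨
      ∃ (a : E) (r : ℝ), 0 < r ∧ crossSection K E y = (fun x => a + r • x) '' Q) :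
    vol (E.orthogonalProjectionOnto '' projBody K) =
      AllN.RC (finrank ℝ E) * (∫ y, ph K E y) ^ finrank ℝ E := by
  have hI := integral_ph_pos hK (E := E) (by omega)
  have hB := isBody_of_ellipsoid hQ
  have hq : 0 < rt Q := Real.rpow_pos_of_pos (Main.vol_pos hB) _
  have h1 : gA K E univ = fun w => (∫ y, ph K E y) / rt Q ^ (finrank ℝ E - 1) * beta Q w := by
    funext w
    unfold gA
    rw [Measure.restrict_univ, ← integral_div, ← integral_mul_const]
    refine integral_congr_ae ?_
    filter_upwards [h] with y hy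
    unfold ph
    rcases hy with hy | ⟨a, r, hr, hy⟩
    · rw [hy, beta_empty, rt_empty (by omega), zero_pow (by omega), zero_div, zero_mul]
    · have e1 : rt ((fun x => a + x) '' (r • Q)) = r * rt Q := by
        rw [← rt_smul (by omega) hr.le]
        unfold rt
        rw [vol_image_add_left]
      rw [hy, image_homothety, beta_translate, beta_smul_set hB.compact hB.convex hr, e1, mul_pow]
      field_simp
  have hl : 0 < (∫ y, ph K E y) / rt Q ^ (finrank ℝ E - 1) := by positivity
  have e2 : (rt Q ^ (finrank ℝ E - 1)) ^ finrank ℝ E = vol Q ^ (finrank ℝ E - 1) := by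
    rw [← pow_mul, mul_comm, pow_mul, rt_pow (by omega)]
  have hv := Main.vol_pos hB
  rw [proj_projBody hK.compact hK.convex, h1, wulff_mul hl, vol_smul_set_of_nonneg hl.le,
    ← projBody_eq_wulff hB.compact hB.convex, (petty_body hd rfl hB).2.2 hQ, div_pow, e2]
  field_simp

/-- parallel sections of an ellipsoid are homothetic ellipsoids -/
theorem sec_ellipsoid {K : Set V} (hK : Statement.IsEllipsoid K) {E : Submodule ℝ V}
    (hd : 0 < finrank ℝ E) : ∃ Q : Set E, Statement.IsEllipsoid Q ∧
      ∀ᵐ y : Eᗮ, crossSection K E y = ∅ ∨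
        ∃ (a : E) (r : ℝ), 0 < r ∧ crossSection K E y = (fun x => a + r • x) '' Q := by
  have hae := ae_sec (isBody_of_ellipsoid hK) E
  obtain ⟨a, T, rfl⟩ := (Statement.isEllipsoid_iff K).1 hK
  let S : E →ₗ[ℝ] V := (T.symm : V →ₗ[ℝ] V) ∘ₗ E.subtype
  have hS : Function.Injective S := T.symm.injective.comp Subtype.val_injective
  let e : E ≃ₗ[ℝ] LinearMap.range S := LinearEquiv.ofInjective S hS
  let J : E ≃ₗᵢ[ℝ] LinearMap.range S := (stdOrthonormalBasis ℝ E).repr.trans
    ((stdOrthonormalBasis ℝ (LinearMap.range S)).reindex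
      (finCongr e.finrank_eq.symm)).repr.symm
  have he : ∀ z : E, (e z : V) = S z := fun z => rfl
  refine ⟨{z | ‖S z‖ ≤ 1}, (Statement.isEllipsoid_iff _).2
    ⟨0, J.toLinearEquiv.trans e.symm, ?_⟩, ?_⟩
  · ext z
    constructor
    · intro hz
      refine ⟨J.symm (e z), ?_, by simp⟩
      rw [mem_closedBall_zero_iff, J.symm.norm_map]
      exact hz
    · rintro ⟨x, hx, rfl⟩
      show ‖S (0 + e.symm (J x))‖ ≤ 1
      rw [zero_add, ← he, e.apply_symm_apply, ← Submodule.coe_norm, J.norm_map]
      exact mem_closedBall_zero_iff.1 hx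
  · filter_upwards [hae] with y hy
    refine hy.imp id fun hb => ?_
    obtain ⟨p, hp⟩ : ∃ p, p = T.symm ((y : V) - a) := ⟨_, rfl⟩
    obtain ⟨z0, hz0⟩ : ∃ z0 : E, S z0 = (LinearMap.range S).starProjection p :=
      (LinearMap.range S).starProjection_apply_mem p
    have hmem : ∀ z : E, z ∈ crossSection ((fun x => a + T x) '' closedBall 0 1) E y ↔
        ‖S (z + z0)‖ ^ 2 ≤ 1 - ‖p - S z0‖ ^ 2 := by
      intro z
      have h1 : z ∈ crossSection ((fun x => a + T x) '' closedBall 0 1) E y ↔ ‖S z + p‖ ≤ 1 := by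
        have h2 : S z + p = T.symm ((z : V) + y - a) := by
          rw [hp, add_sub_assoc, map_add]
          rfl
        rw [h2]
        constructor
        · rintro ⟨x, hx, hxz⟩
          have h3 : (z : V) + y - a = T x := by
            rw [← hxz]
            simp
          rw [h3, T.symm_apply_apply]
          exact mem_closedBall_zero_iff.1 hx
        · intro h
          exact ⟨_, mem_closedBall_zero_iff.2 h, by simp⟩
      have h4 : inner ℝ (S (z + z0)) (p - S z0) = 0 := by
        rw [hz0]
        exact (LinearMap.range S).inner_right_of_mem_orthogonal ⟨_, rfl⟩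
          ((LinearMap.range S).sub_starProjection_mem_orthogonal p)
      have h5 := norm_add_sq_eq_norm_sq_add_norm_sq_real h4
      have h6 : S (z + z0) + (p - S z0) = S z + p := by
        rw [map_add]
        abel
      rw [h6] at h5
      rw [h1, ← sq_le_one_iff₀ (norm_nonneg _)]
      constructor <;> intro h <;> nlinarith
    have hpos : 0 < 1 - ‖p - S z0‖ ^ 2 := by
      by_contra hn
      have hsub : crossSection ((fun x => a + T x) '' closedBall 0 1) E y ⊆ {-z0} := by
        intro z hz
        have h1 := (hmem z).1 hz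
        have h2 : ‖S (z + z0)‖ = 0 := pow_eq_zero_iff two_ne_zero |>.1
          (le_antisymm (h1.trans (not_lt.1 hn)) (sq_nonneg _))
        have h3 : z + z0 = 0 := hS (by rw [norm_eq_zero.1 h2, map_zero])
        exact eq_neg_of_add_eq_zero_left h3
      have : Nontrivial E := Module.nontrivial_of_finrank_pos hd
      have h4 := hb.int.mono (interior_mono hsub)
      simp at h4
    have hr := Real.sqrt_pos.2 hpos
    refine ⟨-z0, √(1 - ‖p - S z0‖ ^ 2), hr, ?_⟩
    ext z
    rw [hmem, ← Real.le_sqrt (norm_nonneg _) hpos.le]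
    constructor
    · intro h
      refine ⟨(√(1 - ‖p - S z0‖ ^ 2))⁻¹ • (z + z0), ?_, ?_⟩
      · show ‖S _‖ ≤ 1
        rw [map_smul, norm_smul, Real.norm_eq_abs, abs_of_pos (inv_pos.2 hr), inv_mul_le_iff₀ hr,
          mul_one]
        exact h
      · simp only [smul_smul, mul_inv_cancel₀ hr.ne', one_smul]
        abel
    · rintro ⟨x, hx, rfl⟩
      have hx' : ‖S x‖ ≤ 1 := hx
      simp only [neg_add_cancel_comm, map_smul, norm_smul, Real.norm_eq_abs, abs_of_pos hr]
      exact mul_le_of_le_one_right hr.le hx'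

theorem sub_max {K : Set V} (hK : IsBody K) {E : Submodule ℝ V} (hd : 3 ≤ finrank ℝ E) {m : ℝ}
    (hm : ∀ y, vol (crossSection K E y) ≤ m) :
    AllN.RC (finrank ℝ E) * vol K ^ finrank ℝ E ≤
      m * vol (E.orthogonalProjectionOnto '' projBody K) := by
  have hc := AllN.RC_pos (m := finrank ℝ E) (by omega)
  have hm0 : 0 ≤ m := (vol_nonneg _).trans (hm 0)
  have h1 : vol K ≤ m ^ ((1 : ℝ) / finrank ℝ E) * ∫ y, ph K E y := by
    rw [vol_eq_sec hK.compact E, ← integral_const_mul]
    refine integral_mono (integrable_vol_sec hK.compact E)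
      ((integrable_ph hK.compact (by omega)).const_mul _) fun y => ?_
    have h2 : rt (crossSection K E y) ≤ m ^ ((1 : ℝ) / finrank ℝ E) :=
      Real.rpow_le_rpow (vol_nonneg _) (hm y) (by positivity)
    have h3 : vol (crossSection K E y) = rt (crossSection K E y) * ph K E y := by
      unfold ph
      rw [← pow_succ', Nat.sub_add_cancel (by omega), rt_pow (by omega)]
    show vol (crossSection K E y) ≤ _
    rw [h3]
    exact mul_le_mul_of_nonneg_right h2 (ph_nonneg K E y)
  have h2 := pow_le_pow_left₀ (vol_nonneg _) h1 (finrank ℝ E)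
  rw [mul_pow, root_pow hm0 (by omega)] at h2
  have h3 := mul_le_mul_of_nonneg_left (sub_ineq hK hd) hm0
  have h4 := mul_le_mul_of_nonneg_left h2 hc.le
  linarith

theorem ph_eq {K : Set V} {E : Submodule ℝ V} {k : ℕ} (hk : 0 < k) (hd : finrank ℝ E = k) :
    ph K E = fun y => Statement.vol (crossSection K E y) ^ (((k : ℝ) - 1) / k) := by
  funext y
  unfold ph rt
  rw [hd, ← Real.rpow_natCast, ← Real.rpow_mul (vol_nonneg _), Nat.cast_pred hk, one_div,
    ← div_eq_inv_mul]
  rfl

end Vale.Agent.N237
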