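import Vale.Agent.N237.Defs
import Vale.Agent.N237.IBM

/-! # P237: sections of a convex body parallel to a subspace -/

open MeasureTheory Metric Set Module Filter Topology
open scoped Pointwise

namespace Vale.Agent.N237

open Vale.Agent.P237

variable {V : Type} [NormedAddCommGroup V] [InnerProductSpace ℝ V] [FiniteDimensional ℝ V]
  [MeasurableSpace V] [BorelSpace V]

/-- the equivalence `E^⊥ × E ≃ V`, `(y, z) ↦ z + y` -/
noncomputable def secEquiv (E : Submodule ℝ V) : (Eᗮ × E) ≃ᵐ V :=
  (MeasurableEquiv.prodComm.trans (MeasurableEquiv.toLp 2 _)).trans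
    E.orthogonalDecomposition.symm.toHomeomorph.toMeasurableEquiv

theorem secEquiv_apply (E : Submodule ℝ V) (p : Eᗮ × E) :
    secEquiv E p = (p.2 : V) + (p.1 : V) := by
  show E.orthogonalDecomposition.symm (WithLp.toLp 2 (p.2, p.1)) = _
  rw [Submodule.orthogonalDecomposition_symm_apply]
  rfl

theorem secEquiv_mp (E : Submodule ℝ V) : MeasurePreserving (secEquiv E) := by
  refine MeasurePreserving.trans (MeasurePreserving.trans ?_
    (WithLp.volume_preserving_toLp E Eᗮ)) E.orthogonalDecomposition.symm.measurePreserving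
  exact Measure.measurePreserving_swap

theorem sec_eq_preimage (K : Set V) (E : Submodule ℝ V) (y : Eᗮ) :
    Prod.mk y ⁻¹' (secEquiv E ⁻¹' K) = crossSection K E y := by
  ext z
  simp only [mem_preimage, secEquiv_apply, crossSection, mem_ofPred_eq]

theorem measurable_sec {K : Set V} (hK : MeasurableSet K) (E : Submodule ℝ V) :
    Measurable fun y : Eᗮ => volume (crossSection K E y) := by
  simp only [← sec_eq_preimage]
  exact measurable_measure_prodMk_left ((secEquiv E).measurable hK)

theorem volume_eq_sec {K : Set V} (hK : MeasurableSet K) (E : Submodule ℝ V) :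
    volume K = ∫⁻ y : Eᗮ, volume (crossSection K E y) := by
  rw [← (secEquiv_mp E).measure_preimage hK.nullMeasurableSet, Measure.volume_eq_prod,
    Measure.prod_apply ((secEquiv E).measurable hK)]
  simp only [sec_eq_preimage]

omit [MeasurableSpace V] [BorelSpace V] in
theorem sec_compact {K : Set V} (hK : IsCompact K) (E : Submodule ℝ V) (y : Eᗮ) :
    IsCompact (crossSection K E y) := by
  have h1 : IsCompact ((fun x : V => x + (y : V)) ⁻¹' K) :=
    (Homeomorph.addRight (y : V)).isCompact_preimage.2 hK
  exact E.closed_of_finiteDimensional.isClosedEmbedding_subtypeVal.isCompact_preimage h1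

omit [FiniteDimensional ℝ V] [MeasurableSpace V] [BorelSpace V] in
theorem sec_convex {K : Set V} (hK : Convex ℝ K) (E : Submodule ℝ V) (y : Eᗮ) :
    Convex ℝ (crossSection K E y) := by
  intro z hz w hw a b ha hb hab
  have h1 := hK hz hw ha hb hab
  show ((a • z + b • w : E) : V) + (y : V) ∈ K
  have h2 : ((a • z + b • w : E) : V) + (y : V) = a • ((z : V) + y) + b • ((w : V) + y) := by
    push_cast
    rw [smul_add, smul_add, add_add_add_comm, ← add_smul, hab, one_smul]
  rw [h2]
  exact h1

theorem integrable_vol_sec {K : Set V} (hK : IsCompact K) (E : Submodule ℝ V) :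
    Integrable fun y : Eᗮ => vol (crossSection K E y) := by
  refine integrable_toReal_of_lintegral_ne_top
    (measurable_sec hK.measurableSet E).aemeasurable ?_
  rw [← volume_eq_sec hK.measurableSet]
  exact hK.measure_lt_top.ne

theorem vol_eq_sec {K : Set V} (hK : IsCompact K) (E : Submodule ℝ V) :
    vol K = ∫ y : Eᗮ, vol (crossSection K E y) := by
  unfold vol
  rw [integral_toReal (measurable_sec hK.measurableSet E).aemeasurable
    (Eventually.of_forall fun y => (sec_compact hK E y).measure_lt_top),
    ← volume_eq_sec hK.measurableSet]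

omit [FiniteDimensional ℝ V] [MeasurableSpace V] [BorelSpace V] in
theorem sec_add_segment (K : Set V) (E : Submodule ℝ V) (y : Eᗮ) (w : E) :
    crossSection (K + segment ℝ 0 (w : V)) E y = crossSection K E y + segment ℝ 0 w := by
  ext z
  constructor
  · rintro ⟨a, ha, b, hb, hab⟩
    rw [segment_eq_image_smul] at hb
    obtain ⟨r, hr, rfl⟩ := hb
    refine ⟨z - r • w, ?_, r • w, ?_, by simp⟩
    · show ((z - r • w : E) : V) + (y : V) ∈ K
      have : ((z - r • w : E) : V) + (y : V) = a := by
        have hab' : a + r • (w : V) = (z : V) + (y : V) := hab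
        push_cast
        rw [sub_add_eq_add_sub, ← hab']
        simp only [add_sub_cancel_right]
      rw [this]
      exact ha
    · rw [segment_eq_image_smul]
      exact ⟨r, hr, rfl⟩
  · rintro ⟨a, ha, b, hb, rfl⟩
    rw [segment_eq_image_smul] at hb
    obtain ⟨r, hr, rfl⟩ := hb
    refine ⟨(a : V) + (y : V), ha, r • (w : V), ?_, ?_⟩
    · rw [segment_eq_image_smul]
      exact ⟨r, hr, rfl⟩
    · push_cast
      abel

theorem integrable_beta_sec {K : Set V} (hK : IsCompact K) (E : Submodule ℝ V) (w : E) :
    Integrable fun y : Eᗮ => beta (crossSection K E y) w := by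
  have hKs : IsCompact (K + segment ℝ 0 (w : V)) := hK.add (isCompact_segment' _ _)
  have h := (integrable_vol_sec hKs E).sub (integrable_vol_sec hK E)
  simp only [sec_add_segment] at h
  exact h

theorem beta_eq_sec {K : Set V} (hK : IsCompact K) (E : Submodule ℝ V) (w : E) :
    ∫ y : Eᗮ, beta (crossSection K E y) w = beta K (w : V) := by
  have hKs : IsCompact (K + segment ℝ 0 (w : V)) := hK.add (isCompact_segment' _ _)
  unfold beta
  rw [vol_eq_sec hKs E, vol_eq_sec hK E,
    ← integral_sub (integrable_vol_sec hKs E) (integrable_vol_sec hK E)]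
  simp only [sec_add_segment]

omit [FiniteDimensional ℝ V] [MeasurableSpace V] [BorelSpace V] in
theorem sec_bound {K : Set V} {R : ℝ} (hR : K ⊆ closedBall 0 R) (E : Submodule ℝ V) {y : Eᗮ}
    {z : E} (hz : z ∈ crossSection K E y) : ‖z‖ ≤ R ∧ ‖y‖ ≤ R := by
  have h1 : ‖(z : V) + (y : V)‖ ≤ R := mem_closedBall_zero_iff.1 (hR hz)
  have h2 := norm_add_sq_eq_norm_sq_add_norm_sq_real (E.inner_right_of_mem_orthogonal z.2 y.2)
  have h3 : ‖(z : V) + (y : V)‖ * ‖(z : V) + (y : V)‖ ≤ R * R :=
    mul_self_le_mul_self (norm_nonneg _) h1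
  have hR0 : 0 ≤ R := (norm_nonneg _).trans h1
  have h4 := mul_self_nonneg ‖(z : V)‖
  have h5 := mul_self_nonneg ‖(y : V)‖
  have k1 : ‖(z : V)‖ ≤ R := (mul_self_le_mul_self_iff (norm_nonneg _) hR0).2 (by linarith)
  have k2 : ‖(y : V)‖ ≤ R := (mul_self_le_mul_self_iff (norm_nonneg _) hR0).2 (by linarith)
  exact ⟨k1, k2⟩

/-- almost every section is empty or a convex body -/
theorem ae_sec {K : Set V} (hK : IsBody K) (E : Submodule ℝ V) :
    ∀ᵐ y : Eᗮ, crossSection K E y = ∅ ∨ IsBody (crossSection K E y) := by
  have hsurj : Function.Surjective Eᗮ.orthogonalProjectionOnto := fun z =>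
    ⟨z, Submodule.orthogonalProjectionOnto_mem_subspace_eq_self z⟩
  have hopen : IsOpen (Eᗮ.orthogonalProjectionOnto '' interior K) :=
    Eᗮ.orthogonalProjectionOnto.isOpenMap hsurj _ isOpen_interior
  have hconv : Convex ℝ (Eᗮ.orthogonalProjectionOnto '' interior K) :=
    hK.convex.interior.linear_image Eᗮ.orthogonalProjectionOnto.toLinearMap
  have hnull := hconv.addHaar_frontier volume
  filter_upwards [measure_eq_zero_iff_ae_notMem.1 hnull] with y hy
  rw [hopen.frontier_eq, Set.mem_sdiff, not_and, not_not] at hy
  by_cases hc : y ∈ closure (Eᗮ.orthogonalProjectionOnto '' interior K)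
  · right
    obtain ⟨x, hx, hxy⟩ := hy hc
    refine ⟨sec_convex hK.convex E y, sec_compact hK.compact E y, E.orthogonalProjectionOnto x, ?_⟩
    have hcont : Continuous fun z : E => (z : V) + (y : V) :=
      continuous_subtype_val.add continuous_const
    refine preimage_interior_subset_interior_preimage hcont ?_
    show (E.orthogonalProjectionOnto x : V) + (y : V) ∈ interior K
    rw [← hxy]
    have := E.starProjection_add_starProjection_orthogonal x
    rw [Submodule.starProjection_apply, Submodule.starProjection_apply] at this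
    rw [this]
    exact hx
  · left
    rw [eq_empty_iff_forall_notMem]
    intro z hz
    apply hc
    have h1 : (z : V) + (y : V) ∈ closure (interior K) := by
      rw [hK.convex.closure_interior_eq_closure_of_nonempty_interior hK.int]
      exact subset_closure hz
    have h2 := image_closure_subset_closure_image Eᗮ.orthogonalProjectionOnto.continuous
      (mem_image_of_mem _ h1)
    have h3 : Eᗮ.orthogonalProjectionOnto (z : V) = 0 := by
      rw [Submodule.orthogonalProjectionOnto_eq_zero_iff, Submodule.orthogonal_orthogonal]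
      exact z.2
    rwa [map_add, h3, zero_add, Submodule.orthogonalProjectionOnto_mem_subspace_eq_self] at h2

/-- the integrand -/
noncomputable def ph (K : Set V) (E : Submodule ℝ V) (y : Eᗮ) : ℝ :=
  rt (crossSection K E y) ^ (finrank ℝ E - 1)

theorem ph_nonneg (K : Set V) (E : Submodule ℝ V) (y : Eᗮ) : 0 ≤ ph K E y :=
  pow_nonneg (rt_nonneg _) _

theorem rt_empty {W : Type*} [NormedAddCommGroup W] [InnerProductSpace ℝ W]
    [FiniteDimensional ℝ W] [MeasurableSpace W] [BorelSpace W] (hd : 0 < finrank ℝ W) :
    rt (∅ : Set W) = 0 := by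
  unfold rt vol
  rw [measure_empty, ENNReal.toReal_zero, Real.zero_rpow (by positivity)]

theorem integrable_ph {K : Set V} (hK : IsCompact K) {E : Submodule ℝ V}
    (hd : 2 ≤ finrank ℝ E) : Integrable (ph K E) := by
  obtain ⟨R, hR⟩ := hK.isBounded.subset_closedBall 0
  have hm : Measurable (ph K E) :=
    ((measurable_sec hK.measurableSet E).ennreal_toReal.pow_const _).pow_const _
  have hi : Integrable ((closedBall (0 : Eᗮ) R).indicator
      fun _ => rt (closedBall (0 : E) R) ^ (finrank ℝ E - 1)) :=
    (integrableOn_const measure_closedBall_lt_top.ne).integrable_indicator measurableSet_closedBall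
  refine hi.mono' hm.aestronglyMeasurable (Eventually.of_forall fun y => ?_)
  rw [Real.norm_eq_abs, abs_of_nonneg (ph_nonneg K E y)]
  by_cases hy : y ∈ closedBall (0 : Eᗮ) R
  · rw [indicator_of_mem hy]
    exact pow_le_pow_left₀ (rt_nonneg _) (rt_mono (isCompact_closedBall _ _)
      fun z hz => mem_closedBall_zero_iff.2 (sec_bound hR E hz).1) _
  · rw [indicator_of_notMem hy]
    have : crossSection K E y = ∅ := eq_empty_iff_forall_notMem.2 fun z hz =>
      hy (mem_closedBall_zero_iff.2 (sec_bound hR E hz).2)
    unfold ph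
    rw [this, rt_empty (by omega), zero_pow (by omega)]

/-- the support function of the part of the projection of `ΠK` that comes from the sections
through `A` -/
noncomputable def gA (K : Set V) (E : Submodule ℝ V) (A : Set Eᗮ) (w : E) : ℝ :=
  ∫ y in A, beta (crossSection K E y) w

theorem gA_nice {K : Set V} (hK : IsCompact K) (hc : Convex ℝ K) (E : Submodule ℝ V)
    (A : Set Eᗮ) : Nice (gA K E A) where
  hs t v ht := by
    unfold gA
    rw [← integral_const_mul]
    simp only [beta_hs (sec_compact hK E _) (sec_convex hc E _) t v ht]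
  ha v w := by
    unfold gA
    rw [← integral_add (integrable_beta_sec hK E v).integrableOn
      (integrable_beta_sec hK E w).integrableOn]
    exact integral_mono (integrable_beta_sec hK E _).integrableOn
      ((integrable_beta_sec hK E v).integrableOn.add (integrable_beta_sec hK E w).integrableOn)
      fun y => beta_add_le (sec_compact hK E y) (sec_convex hc E y) v w
  ev v := by
    unfold gA
    simp only [beta_neg]
  bd := by
    obtain ⟨C, hC, hCb⟩ := exists_beta_le hK hc
    refine ⟨C, hC, fun v => le_trans ?_ (hCb v)⟩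
    rw [← beta_eq_sec hK E v]
    exact setIntegral_le_integral (integrable_beta_sec hK E v)
      (Eventually.of_forall fun y => beta_nonneg (sec_compact hK E y) (sec_convex hc E y) v)

theorem gA_ge {K : Set V} (hK : IsCompact K) (hc : Convex ℝ K) {E : Submodule ℝ V}
    (hd : 2 ≤ finrank ℝ E) {c : ℝ} (hc0 : 0 ≤ c)
    (hP : ∀ S : Set E, IsBody S → c * vol S ^ (finrank ℝ E - 1) ≤ vol (projBody S))
    (A : Set Eᗮ) :
    c ^ ((1 : ℝ) / finrank ℝ E) * ∫ y in A, ph K E y ≤ rt (wulff (gA K E A)) := by
  obtain ⟨R, hR⟩ := hK.isBounded.subset_closedBall 0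
  obtain ⟨C, hC, hCb⟩ := exists_beta_le (isCompact_closedBall (0 : E) R) (convex_closedBall _ _)
  have hi : Integrable ((closedBall (0 : Eᗮ) R).indicator fun _ => C) :=
    (integrableOn_const measure_closedBall_lt_top.ne).integrable_indicator measurableSet_closedBall
  rw [← integral_const_mul]
  refine ibm (by omega) (b := fun y w => beta (crossSection K E y) w)
    (fun w => (integrable_beta_sec hK E w).integrableOn) hi.integrableOn
    ((integrable_ph hK hd).const_mul _).integrableOn ?_ (gA_nice hK hc E A).continuous
    (fun _ => rfl) (gA_nice hK hc E A).compact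
  intro y
  obtain ⟨T, t1, t2, t3, t4⟩ := AllN.exists_T hd rfl hc0 hP (sec_compact hK E y)
    (sec_convex hc E y)
  refine ⟨T, t1, t2, fun z hz => ?_, t3, t4⟩
  by_cases hy : y ∈ closedBall (0 : Eᗮ) R
  · rw [indicator_of_mem hy]
    refine norm_le_of_inner_le hC ((t3 z hz z).trans (le_trans ?_ (hCb z)))
    exact beta_mono (sec_compact hK E y) (sec_convex hc E y) (isCompact_closedBall _ _)
      (convex_closedBall _ _) (fun x hx => mem_closedBall_zero_iff.2 (sec_bound hR E hx).1) z
  · rw [indicator_of_notMem hy]
    have : crossSection K E y = ∅ := eq_empty_iff_forall_notMem.2 fun z hz =>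
      hy (mem_closedBall_zero_iff.2 (sec_bound hR E hz).2)
    refine norm_le_of_inner_le le_rfl ((t3 z hz z).trans ?_)
    rw [this, beta_empty, zero_mul]

theorem gA_univ {K : Set V} (hK : IsCompact K) (E : Submodule ℝ V) (w : E) :
    gA K E univ w = beta K (w : V) := by
  unfold gA
  rw [Measure.restrict_univ, beta_eq_sec hK]

theorem proj_projBody {K : Set V} (hK : IsCompact K) (hc : Convex ℝ K) (E : Submodule ℝ V) :
    E.orthogonalProjectionOnto '' projBody K = wulff (gA K E univ) := by
  rw [projBody_eq_wulff hK hc, wulff_proj (beta_hs hK hc) (beta_add_le hK hc)]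
  ext z
  simp only [wulff, mem_ofPred_eq, gA_univ hK]

/-- the integral of the integrand is positive -/
theorem integral_ph_pos {K : Set V} (hK : IsBody K) {E : Submodule ℝ V} (hd : 2 ≤ finrank ℝ E) :
    0 < ∫ y, ph K E y := by
  refine lt_of_le_of_ne (integral_nonneg (ph_nonneg K E)) fun h0 => ?_
  have h1 := (integral_eq_zero_iff_of_nonneg (ph_nonneg K E) (integrable_ph hK.compact hd)).1
    h0.symm
  have h2 : ∫ y : Eᗮ, vol (crossSection K E y) = 0 := by
    refine integral_eq_zero_of_ae ?_
    filter_upwards [h1] with y hy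
    have h3 : rt (crossSection K E y) = 0 := pow_eq_zero_iff (by omega) |>.1 hy
    show vol (crossSection K E y) = 0
    rw [← rt_pow (by omega), h3, zero_pow (by omega)]
  rw [← vol_eq_sec hK.compact] at h2
  exact (Main.vol_pos hK).ne' h2

/-- in the case of equality the support functions of the projection bodies of the sections are
proportional -/
theorem ae_proportional {K : Set V} (hK : IsBody K) {E : Submodule ℝ V}
    (hd : 2 ≤ finrank ℝ E) {c : ℝ} (hc0 : 0 < c)
    (hP : ∀ S : Set E, IsBody S → c * vol S ^ (finrank ℝ E - 1) ≤ vol (projBody S))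
    (heq : rt (wulff (gA K E univ)) ≤ c ^ ((1 : ℝ) / finrank ℝ E) * ∫ y, ph K E y) :
    ∀ᵐ y : Eᗮ, ∀ w : E, beta (crossSection K E y) w = ph K E y / (∫ y, ph K E y) * beta K w := by
  have hI := integral_ph_pos hK hd
  have hcp : 0 < c ^ ((1 : ℝ) / finrank ℝ E) := Real.rpow_pos_of_pos hc0 _
  have hset : ∀ A : Set Eᗮ, MeasurableSet A → ∀ w : E,
      ∫ y in A, beta (crossSection K E y) w =
        ∫ y in A, ph K E y / (∫ y, ph K E y) * beta K w := by
    intro A hA w
    have s1 := integral_add_compl hA (integrable_ph hK.compact hd)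
    have s2 : ∀ w : E, gA K E A w + gA K E Aᶜ w = gA K E univ w := by
      intro w
      unfold gA
      rw [Measure.restrict_univ, integral_add_compl hA (integrable_beta_sec hK.compact E w)]
    have a0 : 0 ≤ ∫ y in A, ph K E y := integral_nonneg (ph_nonneg K E)
    have b0 : 0 ≤ ∫ y in Aᶜ, ph K E y := integral_nonneg (ph_nonneg K E)
    have h := proportional (by omega) (gA_nice hK.compact hK.convex E A)
      (gA_nice hK.compact hK.convex E Aᶜ) (mul_nonneg hcp.le a0) (mul_nonneg hcp.le b0)
      (by rw [← mul_add, s1]; positivity) (gA_ge hK.compact hK.convex hd hc0.le hP A)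
      (gA_ge hK.compact hK.convex hd hc0.le hP Aᶜ)
      (by
        simp only [s2]
        rw [← mul_add, s1]
        exact heq) w
    rw [integral_mul_const, integral_div, ← gA_univ hK.compact, ← s2 w]
    show gA K E A w = _
    rw [mul_assoc, mul_assoc] at h
    have h' := mul_left_cancel₀ hcp.ne' h
    rw [← s1] at hI ⊢
    field_simp
    linarith
  have hw : ∀ w : E, ∀ᵐ y : Eᗮ,
      beta (crossSection K E y) w = ph K E y / (∫ y, ph K E y) * beta K w := fun w =>
    Integrable.ae_eq_of_forall_setIntegral_eq _ _ (integrable_beta_sec hK.compact E w)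
      (((integrable_ph hK.compact hd).div_const _).mul_const _) fun A hA _ => hset A hA w
  obtain ⟨u, hu⟩ := TopologicalSpace.exists_dense_seq E
  filter_upwards [ae_all_iff.2 fun i => hw (u i)] with y hy w
  refine hu.induction_on w (isClosed_eq
    (beta_continuous (sec_compact hK.compact E y) (sec_convex hK.convex E y))
    (continuous_const.mul
      ((beta_continuous hK.compact hK.convex).comp continuous_subtype_val))) hy

end Vale.Agent.N237
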